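import Mathlib
import Vale.Agent.P064.Defs
import Vale.Agent.P064.Frac

namespace Vale.Agent.Results.P064.Frac

/-- There is a universal constant `C` such that for all `n ≥ 2` and all graphs `H` with at most `n`
vertices and at least one edge,
`p_c(n,H) ≤ C (log n)^2 (1 + log (1 + log n))^2 p_E(n,H)` and
`p~_E(n,H) ≤ C (log n) (1 + log (1 + log n))^2 p_E(n,H)`. -/
theorem result : ∃ C : ℝ, 0 < C ∧ ∀ n : ℕ, 2 ≤ n → ∀ (V : Type) [Fintype V]
    (H : SimpleGraph V), Fintype.card V ≤ n → (∃ u v, H.Adj u v) →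
    P064.pc n H ≤
      C * Real.log n ^ 2 * (1 + Real.log (1 + Real.log n)) ^ 2 * P064.pE n H ∧
    P064.pEt n H ≤
      C * Real.log n * (1 + Real.log (1 + Real.log n)) ^ 2 * P064.pE n H := by
  obtain ⟨C1, h1, H1⟩ := P064.pc_le_pE
  obtain ⟨C2, h2, H2⟩ := P064.pEt_le_pE
  refine ⟨max C1 C2, lt_max_of_lt_left h1, ?_⟩
  intro n hn V _ H hV hE
  have hnR : (2 : ℝ) ≤ n := by exact_mod_cast hn
  have hlogn : 0 < Real.log n := Real.log_pos (by linarith)
  have hp : 0 ≤ P064.pE n H := Real.sInf_nonneg (fun q hq => hq.1)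
  refine ⟨(H1 n hn V H hV hE).trans ?_, (H2 n hn V H hV hE).trans ?_⟩
  · gcongr
    exact le_max_left _ _
  · gcongr
    exact le_max_right _ _

end Vale.Agent.Results.P064.Frac
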