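import Mathlib
import Vale.Agent.P064.Defs
import Vale.Agent.P064.Bound

namespace Vale.Agent.Results.P064.LogSq

/-- There is a universal constant `C` such that for all `n ≥ 2` and all graphs `H` with at most `n`
vertices and at least one edge,
`p_c(n,H) ≤ C (log n)^2 (1 + log (1 + log n))^2 p_E(n,H)`. -/
theorem result : ∃ C : ℝ, 0 < C ∧ ∀ n : ℕ, 2 ≤ n → ∀ (V : Type) [Fintype V]
    (H : SimpleGraph V), Fintype.card V ≤ n → (∃ u v, H.Adj u v) →
    P064.pc n H ≤
      C * Real.log n ^ 2 * (1 + Real.log (1 + Real.log n)) ^ 2 * P064.pE n H :=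
  P064.pc_le_pE

end Vale.Agent.Results.P064.LogSq
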